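import Vale.Agent.P201.Bd3.B4
import Vale.Agent.P201.Bd3.B3
import Vale.Agent.P201.Bd3.B1

/-!
P194: Kaplansky's direct finiteness conjecture is false over every field of characteristic 2,
already for a torsion-free group.
-/

universe u

/-- there is a torsion-free group `G` such that for every field `K` of characteristic 2 the group
algebra `K[G]` is not directly finite -/
theorem Vale.Agent.Results.P194.NotDirectlyFinite.result :
    ∃ (G : Type) (_ : Group G), (∀ g : G, ∀ m : ℕ, 0 < m → g ^ m = 1 → g = 1) ∧
      ∀ (K : Type u) [Field K] [CharP K 2],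
        ∃ a b : MonoidAlgebra K G, a * b = 1 ∧ b * a ≠ 1 :=
  Vale.Agent.P194.M.main Vale.Agent.P201.S.stmtLoc Vale.Agent.P201.S.stmtGlob
    Vale.Agent.P201.S.stmtTor
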